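import Vale.Agent.P158.Paths

/-!
# P158: a block of a strip and the detour above it
-/

open Finset

namespace Vale.Agent.P158

/-- Monotone, with steps at most one. -/
def Slow (g : ℤ → ℤ) : Prop := (Monotone g ∨ Antitone g) ∧ ∀ x, |g (x + 1) - g x| ≤ 1

variable (g : ℤ → ℤ) (W : ℕ) (A : ℤ) (L : ℕ)

/-- The vertices of the strip around `g` over the columns `A, …, A + L`. -/
def InS (v : V) : Prop := A ≤ v.1 ∧ v.1 ≤ A + L ∧ |v.2 - g v.1| ≤ W

/-- They form a finite set. -/
def sVerts : Finset V :=
  (range (L + 1) ×ˢ range (2 * W + 1)).image fun p => (A + p.1, g (A + p.1) - W + p.2)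

theorem mem_sVerts {v : V} : v ∈ sVerts g W A L ↔ InS g W A L v := by
  constructor
  · intro h
    obtain ⟨⟨i, j⟩, hp, rfl⟩ := mem_image.1 h
    simp only [mem_product, mem_range] at hp
    refine ⟨by simp, by simp; omega, ?_⟩
    rw [abs_le]; constructor <;> simp only <;> omega
  · rintro ⟨h1, h2, h3⟩
    rw [abs_le] at h3
    refine mem_image.2 ⟨((v.1 - A).toNat, (v.2 - g v.1 + W).toNat), ?_, ?_⟩
    · simp only [mem_product, mem_range]; omega
    · have : A + ((v.1 - A).toNat : ℤ) = v.1 := by omega
      simp only [this]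
      exact Prod.ext rfl (by simp; omega)

/-- The edges with both ends in the strip. -/
def region : Finset Edge :=
  (sVerts g W A L ×ˢ (univ : Finset Bool)).filter fun e => tip e ∈ sVerts g W A L

theorem mem_region {e : Edge} : e ∈ region g W A L ↔ InS g W A L e.1 ∧ InS g W A L (tip e) := by
  simp [region, mem_sVerts]

/-- The vertical connector in column `c`. -/
def connector (c : ℤ) : Finset Edge :=
  (range (2 * W + 2)).image fun k : ℕ => ((c, g c - W + k), true)

/-- The height of the detour. -/
def top (x : ℤ) : ℤ := g x + W + 2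

/-- The detour above the strip. -/
def body : Finset Edge :=
  (range L).biUnion fun x : ℕ => insert (((A + x, top g W (A + x)), false) : Edge)
    (if top g W (A + x) = top g W (A + x + 1) then ∅
      else {((A + x + 1, min (top g W (A + x)) (top g W (A + x + 1))), true)})

/-- The edges whose weights are made small. -/
def detour : Finset Edge := connector g W A ∪ connector g W (A + L) ∪ body g W A L

theorem card_connector (c : ℤ) : (connector g W c).card ≤ 2 * W + 2 :=
  card_image_le.trans_eq (card_range _)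

variable {g} {W} {A} {L}

theorem step_card (hg : Slow g) (x : ℤ) :
    ((if top g W x = top g W (x + 1) then (0 : ℕ) else 1 : ℕ) : ℤ) = |g (x + 1) - g x| := by
  have h := hg.2 x
  split_ifs with h1
  · simp only [top] at h1; simp [show g (x + 1) - g x = 0 by omega]
  · simp only [top] at h1
    have h2 : |g (x + 1) - g x| ≠ 0 := by simp; omega
    have := abs_nonneg (g (x + 1) - g x)
    omega

theorem sum_abs_step (hg : Slow g) (A : ℤ) : ∀ L : ℕ,
    ∑ x ∈ range L, |g (A + x + 1) - g (A + x)| = |g (A + L) - g A| := fun L => by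
  have e : ∀ x : ℕ, A + x + 1 = A + ((x + 1 : ℕ) : ℤ) := fun x => by push_cast; ring
  simp only [e]
  rcases hg.1 with h | h
  · rw [sum_congr rfl fun (x : ℕ) _ => abs_of_nonneg (sub_nonneg.2 (h (show A + (x : ℤ) ≤ A + ((x + 1 : ℕ) : ℤ) by omega))),
      abs_of_nonneg (sub_nonneg.2 (h (show A ≤ A + (L : ℤ) by omega))),
      sum_range_sub (fun x : ℕ => g (A + x))]
    simp
  · rw [sum_congr rfl fun (x : ℕ) _ => abs_of_nonpos (sub_nonpos.2 (h (show A + (x : ℤ) ≤ A + ((x + 1 : ℕ) : ℤ) by omega))),
      abs_of_nonpos (sub_nonpos.2 (h (show A ≤ A + (L : ℤ) by omega))),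
      sum_neg_distrib, sum_range_sub (fun x : ℕ => g (A + x))]
    simp

theorem card_detour (hg : Slow g) :
    ((detour g W A L).card : ℤ) ≤ 4 * (W + 1) + L + |g (A + L) - g A| := by
  have hb : (body g W A L).card
      ≤ ∑ x ∈ range L, (1 + if top g W (A + x) = top g W (A + x + 1) then 0 else 1) := by
    refine card_biUnion_le.trans (sum_le_sum fun x _ => (card_insert_le _ _).trans ?_)
    split_ifs <;> simp
  have h1 : (detour g W A L).card ≤ (2 * W + 2) + (2 * W + 2) + (body g W A L).card :=
    ((card_union_le _ _).trans (add_le_add (card_union_le _ _) le_rfl)).trans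
      (add_le_add (add_le_add (card_connector _ _ _) (card_connector _ _ _)) le_rfl)
  have h2 := (Int.ofNat_le.2 hb)
  rw [Nat.cast_sum] at h2
  simp only [Nat.cast_add, Nat.cast_one, step_card hg, sum_add_distrib, sum_abs_step hg A L] at h2
  simp only [sum_const, card_range, nsmul_eq_mul, mul_one] at h2
  omega

theorem card_detour_le (hg : Slow g) : (detour g W A L).card ≤ 4 * (W + 1) + 2 * L := by
  have h := card_detour (W := W) (A := A) (L := L) hg
  have : |g (A + L) - g A| ≤ L := by
    rw [← sum_abs_step hg A L]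
    exact (sum_le_sum fun x _ => hg.2 _).trans_eq (by simp)
  omega

theorem conn_mono {F F' : Finset Edge} {u v : V} (hF : F ⊆ F') (h : Conn F u v) : Conn F' u v := by
  induction h with
  | refl => exact .refl
  | tail _ h ih => exact ih.tail ⟨h.1, hF h.2⟩

theorem conn_column (c : ℤ) : ∀ k : ℕ, k ≤ 2 * W + 2 →
    Conn (connector g W c) (c, g c - W) (c, g c - W + k)
  | 0, _ => by simp [Conn]; exact .refl
  | k + 1, hk => by
    refine (conn_column c k (by omega)).trans ?_
    show Conn _ _ _
    have h := conn_of_edge (F := connector g W c) (e := ((c, g c - W + k), true))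
      (mem_image.2 ⟨k, mem_range.2 (by omega), rfl⟩)
    simpa [tip, add_assoc] using h

theorem conn_body (hg : Slow g) : ∀ x : ℕ, x ≤ L →
    Conn (body g W A L) (A, top g W A) (A + x, top g W (A + x))
  | 0, _ => by simp only [Nat.cast_zero, add_zero]; exact .refl
  | x + 1, hx => by
    refine (conn_body hg x (by omega)).trans ?_
    have hmem : ∀ e, e ∈ insert (((A + x, top g W (A + x)), false) : Edge)
        (if top g W (A + x) = top g W (A + x + 1) then ∅
          else {((A + x + 1, min (top g W (A + x)) (top g W (A + x + 1))), true)}) →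
        e ∈ body g W A L := fun e he => mem_biUnion.2 ⟨x, mem_range.2 (by omega), he⟩
    have h1 := conn_of_edge (hmem _ (mem_insert_self _ _))
    simp only [tip, Bool.false_eq_true, if_false] at h1
    rw [show A + ((x + 1 : ℕ) : ℤ) = A + x + 1 by push_cast; ring]
    refine h1.trans ?_
    by_cases he : top g W (A + x) = top g W (A + x + 1)
    · rw [← he]
    · have h2 := conn_of_edge (hmem _ (mem_insert_of_mem (by rw [if_neg he]; exact mem_singleton_self _)))
      simp only [tip, if_true] at h2
      have h := hg.2 (A + x)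
      rw [abs_le] at h
      simp only [top] at he h2 ⊢
      rcases lt_or_gt_of_ne he with hlt | hlt
      · rw [min_eq_left hlt.le, show g (A + x) + W + 2 + 1 = g (A + x + 1) + W + 2 by omega] at h2
        exact h2
      · rw [min_eq_right hlt.le, show g (A + x + 1) + W + 2 + 1 = g (A + x) + W + 2 by omega] at h2
        exact conn_symm h2

theorem conn_detour (hg : Slow g) {u v : V} (hu : InS g W A L u) (hv : InS g W A L v) (hu1 : u.1 = A)
    (hv1 : v.1 = A + L) : Conn (detour g W A L) u v := by
  have key : ∀ c : ℤ, ∀ y : ℤ, |y - g c| ≤ W → Conn (connector g W c) (c, y) (c, top g W c) := fun c y hy => by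
    rw [abs_le] at hy
    have h1 := conn_column (g := g) (W := W) c (y - g c + W).toNat (by omega)
    have h2 := conn_column (g := g) (W := W) c (2 * W + 2) le_rfl
    rw [show g c - W + ((y - g c + W).toNat : ℤ) = y by omega] at h1
    rw [show g c - W + ((2 * W + 2 : ℕ) : ℤ) = top g W c by simp [top]; ring] at h2
    exact (conn_symm h1).trans h2
  have hu' : u = (A, u.2) := Prod.ext hu1 rfl
  have hv' : v = (A + L, v.2) := Prod.ext hv1 rfl
  have a1 := key A u.2 (hu1 ▸ hu.2.2)
  have a2 := key (A + L) v.2 (hv1 ▸ hv.2.2)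
  rw [← hu'] at a1
  rw [← hv'] at a2
  exact (conn_mono (fun e he => by simp [detour, he]) a1).trans
    ((conn_mono (fun e he => by simp [detour, he]) (conn_body hg L le_rfl)).trans
      (conn_symm (conn_mono (fun e he => by simp [detour, he]) a2)))

theorem region_inter_detour (hg : Slow g) :
    region g W A L ∩ detour g W A L ⊆ connector g W A ∪ connector g W (A + L) := fun e he => by
  obtain ⟨he1, he2⟩ := mem_inter.1 he
  rw [detour, mem_union] at he2
  refine he2.resolve_right fun hb => ?_
  obtain ⟨⟨h1, h2, h3⟩, ⟨h4, h5, h6⟩⟩ := (mem_region _ _ _ _).1 he1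
  obtain ⟨x, _, hx⟩ := mem_biUnion.1 hb
  have hs := hg.2 (A + x)
  rw [abs_le] at hs h3
  rcases mem_insert.1 hx with rfl | hx
  · simp only [top] at h3; omega
  · split_ifs at hx with hc
    · simp at hx
    · rw [mem_singleton] at hx
      subst hx
      simp only [top] at h3 hc
      omega

theorem steps_ge {n : ℕ} {w : ℕ → V} (hw : ∀ k < n, Adj (w k) (w (k + 1))) :
    |(w n).1 - (w 0).1| + |(w n).2 - (w 0).2| ≤ n := by
  induction n with
  | zero => simp
  | succ n ih =>
    have h1 := ih fun k hk => hw k (by omega)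
    have h2 : |(w (n + 1)).1 - (w n).1| + |(w (n + 1)).2 - (w n).2| = 1 := hw n (by omega)
    have h3 := abs_sub_le (w (n + 1)).1 (w n).1 (w 0).1
    have h4 := abs_sub_le (w (n + 1)).2 (w n).2 (w 0).2
    push_cast
    omega

theorem crossing_length {n : ℕ} {w : ℕ → V} (hw : IsPathTo n w) (hS : ∀ k ≤ n, InS g W A L (w k))
    (h0 : (w 0).1 = A) (hn : (w n).1 = A + L) : (L : ℤ) + |g (A + L) - g A| ≤ n + 2 * W := by
  have h := steps_ge hw.1
  have h1 := (hS 0 (Nat.zero_le _)).2.2
  have h2 := (hS n le_rfl).2.2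
  rw [h0] at h1 h
  rw [hn] at h2 h
  rw [add_sub_cancel_left, abs_of_nonneg (Int.natCast_nonneg L)] at h
  have h3 := abs_sub_le (g (A + L)) (w n).2 (g A)
  have h4 := abs_sub_le (w n).2 (w 0).2 (g A)
  rw [abs_sub_comm (g (A + L)) (w n).2] at h3
  omega

/-- The edges counted as low. -/
def freeEdges (g : ℤ → ℤ) (W : ℕ) (A : ℤ) (L : ℕ) : Finset Edge := region g W A L \ detour g W A L

/-- In every long path of the block from its first column fewer than half the free edges are low. -/
def Good (g : ℤ → ℤ) (W : ℕ) (A : ℤ) (L : ℕ) (s : ℝ) (t : Edge → ℝ) : Prop :=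
  ∀ (n : ℕ) (w : ℕ → V), IsPathTo n w → (∀ k ≤ n, InS g W A L (w k)) → (w 0).1 = A → L ≤ n →
    2 * ((range n).filter fun k => edgeOf (w k) (w (k + 1)) ∈ freeEdges g W A L
      ∧ t (edgeOf (w k) (w (k + 1))) ≤ s).card < n

theorem edge_mem_region {n : ℕ} {w : ℕ → V} (hw : IsPathTo n w) (hS : ∀ k ≤ n, InS g W A L (w k))
    {k : ℕ} (hk : k < n) : edgeOf (w k) (w (k + 1)) ∈ region g W A L := by
  rw [mem_region]
  rcases edgeOf_ends (hw.1 k hk) with ⟨h1, h2⟩ | ⟨h1, h2⟩ <;> rw [h1, h2]
  · exact ⟨hS k hk.le, hS (k + 1) hk⟩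
  · exact ⟨hS (k + 1) hk, hS k hk.le⟩

/-- No optimal path crosses a block with a cheap detour and few low edges. -/
theorem not_crossing (hg : Slow g) {a δ : ℝ} (ha : 0 ≤ a) (hδ : 0 < δ) {t : Edge → ℝ} (ht : ∀ e, a ≤ t e)
    (hcheap : ∀ e ∈ detour g W A L, t e ≤ a + δ / 4) (hgood : Good g W A L (a + δ) t)
    (hL : 48 * (a + δ) * ((W : ℝ) + 1) < δ * L) {n : ℕ} {w : ℕ → V} (hw : IsPathTo n w)
    (hS : ∀ k ≤ n, InS g W A L (w k)) (h0 : (w 0).1 = A) (hn : (w n).1 = A + L)
    (hopt : IsOptimal t n w) : False := by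
  classical
  set e : ℕ → Edge := fun k => edgeOf (w k) (w (k + 1))
  have hlen := crossing_length hw hS h0 hn
  have hLn : L ≤ n := by
    have h := steps_ge hw.1
    rw [h0, hn, add_sub_cancel_left, abs_of_nonneg (Int.natCast_nonneg L)] at h
    have := abs_nonneg ((w n).2 - (w 0).2)
    omega
  set lo := (range n).filter fun k => e k ∈ freeEdges g W A L ∧ t (e k) ≤ a + δ
  set hi := (range n).filter fun k => ¬t (e k) ≤ a + δ
  set cn := (range n).filter fun k => e k ∈ detour g W A L
  have hcover : range n ⊆ lo ∪ hi ∪ cn := fun k hk => by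
    simp only [lo, hi, cn, mem_union, mem_filter, freeEdges, mem_sdiff]
    have := edge_mem_region hw hS (mem_range.1 hk)
    tauto
  have hcn : cn.card ≤ 4 * (W + 1) := by
    refine le_trans (card_le_card_of_injOn e (t := connector g W A ∪ connector g W (A + L)) ?_ ?_)
      ((card_union_le _ _).trans (by have := card_connector g W A; have := card_connector g W (A + L); omega))
    · intro k hk
      simp only [cn, mem_range, coe_filter, Set.mem_ofPred_eq] at hk
      exact region_inter_detour hg (mem_inter.2 ⟨edge_mem_region hw hS hk.1, hk.2⟩)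
    · exact (edge_inj hw).mono (coe_subset.2 (filter_subset _ _))
  have hlo : 2 * lo.card < n := hgood n w hw hS h0 hLn
  have hc3 : n ≤ lo.card + hi.card + cn.card := by
    have := (card_le_card hcover).trans ((card_union_le _ _).trans (add_le_add (card_union_le _ _) le_rfl))
    simpa using this
  have hcost : n * a + hi.card * δ ≤ cost t n w := by
    have h1 : ∀ k ∈ range n, a + (if ¬t (e k) ≤ a + δ then δ else 0) ≤ t (e k) := fun k _ => by
      split_ifs with h
      · simpa using ht (e k)
      · exact (not_le.1 h).le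
    refine le_of_eq_of_le ?_ (sum_le_sum h1)
    rw [sum_add_distrib, ← sum_filter, sum_const, sum_const, card_range, nsmul_eq_mul, nsmul_eq_mul]
  have hup : cost t n w ≤ (detour g W A L).card * (a + δ / 4) := by
    refine (le_sum_of_conn (fun e => ha.trans (ht e)) hopt (conn_detour hg (hS 0 (Nat.zero_le _))
      (hS n le_rfl) h0 hn)).trans ?_
    rw [← nsmul_eq_mul, ← sum_const]
    exact sum_le_sum hcheap
  have hcd : ((detour g W A L).card : ℝ) ≤ n + (6 * W + 4 : ℕ) := by
    have h := card_detour (W := W) (A := A) (L := L) hg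
    have : (detour g W A L).card ≤ n + (6 * W + 4) := by omega
    exact_mod_cast this
  have hhi : (n : ℝ) ≤ 2 * hi.card + 2 * (4 * ((W : ℝ) + 1)) := by
    have : n ≤ 2 * hi.card + 2 * (4 * (W + 1)) := by omega
    exact_mod_cast this
  have hLn' : (L : ℝ) ≤ n := by exact_mod_cast hLn
  have hW : (0 : ℝ) ≤ W := Nat.cast_nonneg W
  push_cast at hcd
  nlinarith [mul_le_mul_of_nonneg_right hcd (show (0 : ℝ) ≤ a + δ / 4 by linarith),
    mul_le_mul_of_nonneg_left hhi hδ.le, mul_le_mul_of_nonneg_left hLn' hδ.le, mul_nonneg ha hW,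
    mul_nonneg hδ.le hW]

end Vale.Agent.P158
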