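import Vale.Agent.P158.Defs

/-!
# P158: events on disjoint sets of edges
-/

open MeasureTheory ProbabilityTheory Finset

namespace Vale.Agent.P158

variable {G : Measure ℝ} [IsProbabilityMeasure G]

/-- The law of the weights. -/
noncomputable abbrev law (G : Measure ℝ) : Measure (Edge → ℝ) := Measure.infinitePi fun _ : Edge => G

/-- A measurable event determined by the weights on `S`. -/
def DepOn (E : Set (Edge → ℝ)) (S : Finset Edge) : Prop :=
  MeasurableSet E ∧ ∀ t t', (∀ e ∈ S, t e = t' e) → t ∈ E → t' ∈ E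

theorem DepOn.compl {E : Set (Edge → ℝ)} {S : Finset Edge} (h : DepOn E S) : DepOn Eᶜ S :=
  ⟨h.1.compl, fun t t' he ht ht' => ht (h.2 t' t (fun e hes => (he e hes).symm) ht')⟩

theorem DepOn.inter {E E' : Set (Edge → ℝ)} {S S' : Finset Edge} (h : DepOn E S) (h' : DepOn E' S') :
    DepOn (E ∩ E') (S ∪ S') :=
  ⟨h.1.inter h'.1, fun t t' he ⟨h1, h2⟩ => ⟨h.2 t t' (fun e hes => he e (mem_union_left _ hes)) h1,
    h'.2 t t' (fun e hes => he e (mem_union_right _ hes)) h2⟩⟩

theorem DepOn.mono {E : Set (Edge → ℝ)} {S S' : Finset Edge} (h : DepOn E S) (hs : S ⊆ S') :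
    DepOn E S' :=
  ⟨h.1, fun t t' he => h.2 t t' fun e hes => he e (hs hes)⟩

theorem law_inter {E E' : Set (Edge → ℝ)} {S S' : Finset Edge} (h : DepOn E S) (h' : DepOn E' S')
    (hd : Disjoint S S') : law G (E ∩ E') = law G E * law G E' := by
  classical
  let ext : ∀ T : Finset Edge, (T → ℝ) → Edge → ℝ := fun T z e => if he : e ∈ T then z ⟨e, he⟩ else 0
  have hm : ∀ T, Measurable (ext T) := fun T => measurable_pi_lambda _ fun e => by
    by_cases he : e ∈ T <;> simp only [ext, he, dite_true, dite_false] <;> fun_prop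
  have key : ∀ {E : Set (Edge → ℝ)} {T : Finset Edge}, DepOn E T →
      E = (fun t (i : T) => t i) ⁻¹' (ext T ⁻¹' E) := fun {E T} h => by
    ext t
    have he : ∀ e ∈ T, t e = ext T (fun i : T => t i) e := fun e he => by simp [ext, he]
    exact ⟨h.2 t _ he, h.2 _ t fun e hes => (he e hes).symm⟩
  have hi : iIndepFun (fun (i : Edge) (t : Edge → ℝ) => id (t i)) (law G) :=
    iIndepFun_infinitePi fun _ => measurable_id
  have := (hi.indepFun_finset S S' hd fun i => measurable_pi_apply i).measure_inter_preimage_eq_mul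
    (ext S ⁻¹' E) (ext S' ⁻¹' E') (hm S h.1) (hm S' h'.1)
  simp only [id_eq] at this
  rwa [← key h, ← key h'] at this

theorem law_biInter {ι : Type*} (s : Finset ι) (E : ι → Set (Edge → ℝ)) (S : ι → Finset Edge)
    (h : ∀ i ∈ s, DepOn (E i) (S i)) (hd : (s : Set ι).PairwiseDisjoint S) :
    law G (⋂ i ∈ s, E i) = ∏ i ∈ s, law G (E i) := by
  classical
  have key : DepOn (⋂ i ∈ s, E i) (s.biUnion S) ∧ law G (⋂ i ∈ s, E i) = ∏ i ∈ s, law G (E i) := by
    induction s using Finset.induction with
    | empty => exact ⟨⟨by simp, by simp⟩, by simp⟩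
    | @insert a s ha ih =>
      rw [coe_insert] at hd
      obtain ⟨h1, h2⟩ := ih (fun i hi => h i (mem_insert_of_mem hi)) (hd.subset (Set.subset_insert _ _))
      have ha' := h a (mem_insert_self a s)
      have hdis : Disjoint (S a) (s.biUnion S) := (disjoint_biUnion_right _ _ _).2 fun i hi =>
        hd (Set.mem_insert a _) (Set.mem_insert_of_mem _ hi) fun e => ha (e ▸ hi)
      refine ⟨?_, ?_⟩
      · rw [Finset.set_biInter_insert, biUnion_insert]
        exact ha'.inter h1
      · rw [Finset.set_biInter_insert, law_inter ha' h1 hdis, h2, prod_insert ha]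
  exact key.2

/-- All weights on `F` are at most `u`. -/
def below (F : Finset Edge) (u : ℝ) : Set (Edge → ℝ) := {t | ∀ e ∈ F, t e ≤ u}

theorem depOn_below (F : Finset Edge) (u : ℝ) : DepOn (below F u) F := by
  refine ⟨?_, fun t t' he ht e hes => (he e hes) ▸ ht e hes⟩
  rw [below]
  simp only [Set.ofPred_forall]
  exact MeasurableSet.iInter fun e => MeasurableSet.iInter fun _ =>
    measurableSet_le (measurable_pi_apply e) measurable_const

theorem law_below (F : Finset Edge) (u : ℝ) : law G (below F u) = G (Set.Iic u) ^ F.card := by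
  have : below F u = Set.pi (F : Set Edge) fun _ => Set.Iic u := rfl
  rw [this, Measure.infinitePi_pi _ fun _ _ => measurableSet_Iic, prod_const]

theorem law_real_below (F : Finset Edge) (u : ℝ) :
    (law G).real (below F u) = G.real (Set.Iic u) ^ F.card := by
  rw [measureReal_def, law_below, ENNReal.toReal_pow, measureReal_def]

end Vale.Agent.P158
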