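import Vale.Agent.P158.Block
import Vale.Agent.P158.Indep

/-!
# P158: the probability of a good block
-/

open MeasureTheory ProbabilityTheory Finset

namespace Vale.Agent.P158

variable (g : ℤ → ℤ) (W : ℕ) (A : ℤ) (L : ℕ)

/-- One step. -/
def move (d : Fin 4) (v : V) : V :=
  if d = 0 then (v.1 + 1, v.2) else if d = 1 then (v.1 - 1, v.2)
  else if d = 2 then (v.1, v.2 + 1) else (v.1, v.2 - 1)

/-- The walk with given start height and steps. -/
def walkOf {n : ℕ} (y : ℕ) (d : Fin n → Fin 4) : ℕ → V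
  | 0 => (A, g A - W + y)
  | k + 1 => if h : k < n then move (d ⟨k, h⟩) (walkOf y d k) else walkOf y d k

/-- The edges of the walk at the chosen steps. -/
def chosen (i : Σ n : ℕ, ℕ × (Fin n → Fin 4) × Finset (Fin n)) : Finset Edge :=
  i.2.2.2.image fun k : Fin i.1 =>
    edgeOf (walkOf g W A i.2.1 i.2.2.1 (k : ℕ)) (walkOf g W A i.2.1 i.2.2.1 ((k : ℕ) + 1))

/-- Long walks with at least half of their steps chosen, on distinct free edges. -/
def family : Finset (Σ n : ℕ, ℕ × (Fin n → Fin 4) × Finset (Fin n)) :=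
  ((Ico L (sVerts g W A L).card).sigma fun _ => range (2 * W + 1) ×ˢ univ ×ˢ univ).filter
    fun i => i.1 ≤ 2 * (chosen g W A i).card ∧ chosen g W A i ⊆ freeEdges g W A L

/-- The event of a usable block: cheap detour, no long path with many low free edges. -/
def blockEvent (u s : ℝ) : Set (Edge → ℝ) :=
  below (detour g W A L) u ∩ (⋃ i ∈ family g W A L, below (chosen g W A i) s)ᶜ

/-- The edges the event looks at. -/
def supp : Finset Edge := detour g W A L ∪ freeEdges g W A L

theorem depOn_blockEvent (u s : ℝ) : DepOn (blockEvent g W A L u s) (supp g W A L) := by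
  refine (depOn_below _ _).inter (DepOn.compl ⟨?_, fun t t' he ht => ?_⟩)
  · exact (family g W A L).measurableSet_biUnion fun i _ => (depOn_below _ _).1
  · simp only [Set.mem_iUnion] at ht ⊢
    obtain ⟨i, hi, ht⟩ := ht
    exact ⟨i, hi, (depOn_below _ _).2 t t' (fun e hes => he e ((mem_filter.1 hi).2.2 hes)) ht⟩

variable {g} {W} {A} {L}

theorem good_of_mem {u s : ℝ} {t : Edge → ℝ} (h : t ∈ blockEvent g W A L u s) : Good g W A L s t := by
  intro n w hw hS h0 hLn
  by_contra hc
  push Not at hc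
  set e : ℕ → Edge := fun k => edgeOf (w k) (w (k + 1))
  set T := (range n).filter fun k => e k ∈ freeEdges g W A L ∧ t (e k) ≤ s
  let d : Fin n → Fin 4 := fun k =>
    if w ((k : ℕ) + 1) = ((w k).1 + 1, (w k).2) then 0 else if w ((k : ℕ) + 1) = ((w k).1 - 1, (w k).2) then 1
    else if w ((k : ℕ) + 1) = ((w k).1, (w k).2 + 1) then 2 else 3
  set y := ((w 0).2 - g A + W).toNat
  have hy := (hS 0 (Nat.zero_le _)).2.2
  rw [h0, abs_le] at hy
  have hwk : ∀ k ≤ n, walkOf g W A y d k = w k := by
    intro k hk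
    induction k with
    | zero =>
      refine Prod.ext h0.symm ?_
      show g A - W + (y : ℤ) = (w 0).2
      omega
    | succ k ih =>
      simp only [walkOf, show k < n by omega, dite_true, ih (by omega)]
      have e0 : (w k).1 + 1 ≠ (w k).1 - 1 ∧ (w k).1 ≠ (w k).1 - 1 ∧ (w k).1 - 1 ≠ (w k).1 + 1 := by omega
      have e1 : (w k).2 + 1 ≠ (w k).2 - 1 ∧ (w k).2 ≠ (w k).2 - 1 ∧ (w k).2 - 1 ≠ (w k).2 + 1 := by omega
      rcases adj_cases (hw.1 k (by omega)) with h | h | h | h <;>
        simp [move, d, h, e0, e1, Prod.ext_iff]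
  let S : Finset (Fin n) := univ.filter fun k => (k : ℕ) ∈ T
  have hch : chosen g W A ⟨n, y, d, S⟩ = T.image e := by
    ext x
    simp only [chosen, mem_image, S, mem_filter, mem_univ, true_and]
    constructor
    · rintro ⟨k, hk, rfl⟩
      exact ⟨k, hk, by rw [hwk _ (by omega), hwk _ (by omega)]⟩
    · rintro ⟨k, hk, rfl⟩
      have hkn : k < n := mem_range.1 (mem_filter.1 hk).1
      exact ⟨⟨k, hkn⟩, hk, by rw [hwk _ (by omega), hwk _ (by omega)]⟩
  have hcard : (T.image e).card = T.card :=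
    card_image_of_injOn ((edge_inj hw).mono (coe_subset.2 (filter_subset _ _)))
  have hsub : (range (n + 1)).image w ⊆ sVerts g W A L := fun x hx => by
    obtain ⟨k, hk, rfl⟩ := mem_image.1 hx
    exact (mem_sVerts _ _ _ _).2 (hS k (by have := mem_range.1 hk; omega))
  have hn : n < (sVerts g W A L).card := by
    have h1 := card_le_card hsub
    rw [card_image_of_injOn fun k hk l hl hkl => hw.2 k (by simp at hk; omega) l (by simp at hl; omega) hkl,
      card_range] at h1
    omega
  refine h.2 (Set.mem_biUnion (x := ⟨n, y, d, S⟩) ?_ ?_)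
  · simp only [family, mem_coe, mem_filter, mem_sigma, mem_Ico, mem_product, mem_range, mem_univ, and_true,
      hch, hcard]
    refine ⟨⟨⟨hLn, hn⟩, by omega⟩, hc, fun x hx => ?_⟩
    obtain ⟨k, hk, rfl⟩ := mem_image.1 hx
    exact (mem_filter.1 hk).2.1
  · show t ∈ below _ s
    rw [hch]
    intro x hx
    obtain ⟨k, hk, rfl⟩ := mem_image.1 hx
    exact (mem_filter.1 hk).2.2

variable {G : Measure ℝ} [IsProbabilityMeasure G]

theorem law_bad_le {s : ℝ} (hs : G.real (Set.Iic s) ≤ (1 / 32) ^ 2) (hL : 2 * W + 2 ≤ L) :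
    (law G).real (⋃ i ∈ family g W A L, below (chosen g W A i) s) ≤ 1 / 2 := by
  refine (measureReal_biUnion_finset_le _ _).trans ?_
  simp only [law_real_below]
  have h1 : ∀ i ∈ family g W A L, G.real (Set.Iic s) ^ (chosen g W A i).card ≤ (1 / 32 : ℝ) ^ i.1 := fun i hi =>
    (pow_le_pow_left₀ measureReal_nonneg hs _).trans (by
      rw [← pow_mul]
      exact pow_le_pow_of_le_one (by norm_num) (by norm_num) (mem_filter.1 hi).2.1)
  refine (sum_le_sum h1).trans ?_
  refine (sum_le_sum_of_subset_of_nonneg (filter_subset _ _) fun i _ _ => by positivity).trans ?_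
  rw [sum_sigma]
  have h2 : ∀ n, ∑ _x ∈ range (2 * W + 1) ×ˢ (univ : Finset (Fin n → Fin 4)) ×ˢ (univ : Finset (Finset (Fin n))),
      (1 / 32 : ℝ) ^ n = (2 * W + 1) * (1 / 4) ^ n := fun n => by
    simp only [sum_const, card_product, card_range, card_univ, Fintype.card_fun, Fintype.card_fin,
      Fintype.card_finset, nsmul_eq_mul, Nat.cast_mul, Nat.cast_pow, Nat.cast_add, Nat.cast_ofNat, Nat.cast_one]
    rw [mul_assoc, mul_assoc, ← mul_pow, ← mul_pow]
    norm_num
  simp only [h2, ← mul_sum]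
  refine (mul_le_mul_of_nonneg_left (geom_sum_Ico_le_of_lt_one (by norm_num) (by norm_num)) (by positivity)).trans ?_
  have h3 : (1 / 4 : ℝ) ^ L ≤ (1 / 16) ^ (W + 1) := by
    rw [show (1 / 16 : ℝ) = (1 / 4) ^ 2 by norm_num, ← pow_mul]
    exact pow_le_pow_of_le_one (by norm_num) (by norm_num) (by omega)
  have h4 : ((W : ℝ) + 1) ≤ 16 ^ W := by
    have : W + 1 ≤ 16 ^ W := Nat.lt_pow_self (by norm_num)
    exact_mod_cast this
  rw [pow_succ, show (1 / 16 : ℝ) ^ W = 1 / 16 ^ W from one_div_pow 16 W] at h3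
  calc (2 * (W : ℝ) + 1) * ((1 / 4) ^ L / (1 - 1 / 4))
      ≤ (2 * 16 ^ W) * (1 / 16 ^ W * (1 / 16) / (1 - 1 / 4)) := by
        refine mul_le_mul ?_ ?_ (by positivity) (by positivity)
        · linarith [show (0 : ℝ) ≤ W from Nat.cast_nonneg W]
        · exact div_le_div_of_nonneg_right h3 (by norm_num)
    _ ≤ 1 / 2 := by field_simp; norm_num

theorem law_blockEvent_ge {u s : ℝ} (hs : G.real (Set.Iic s) ≤ (1 / 32) ^ 2) (hL : 2 * W + 2 ≤ L)
    (hg : Slow g) :
    G.real (Set.Iic u) ^ (4 * (W + 1) + 2 * L) / 2 ≤ (law G).real (blockEvent g W A L u s) := by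
  have hU : DepOn (⋃ i ∈ family g W A L, below (chosen g W A i) s) (freeEdges g W A L) := by
    refine ⟨(family g W A L).measurableSet_biUnion fun i _ => (depOn_below _ _).1, fun t t' he ht => ?_⟩
    simp only [Set.mem_iUnion] at ht ⊢
    obtain ⟨i, hi, ht⟩ := ht
    exact ⟨i, hi, (depOn_below _ _).2 t t' (fun e hes => he e ((mem_filter.1 hi).2.2 hes)) ht⟩
  rw [blockEvent, measureReal_def (μ := law G), law_inter (depOn_below _ _) hU.compl disjoint_sdiff, ENNReal.toReal_mul,
    ← measureReal_def, ← measureReal_def, law_real_below, measureReal_compl hU.1, probReal_univ,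
    div_eq_mul_one_div]
  refine mul_le_mul (pow_le_pow_of_le_one measureReal_nonneg measureReal_le_one (card_detour_le hg)) ?_
    (by norm_num) (by positivity)
  linarith [law_bad_le (g := g) (A := A) hs hL]

/-- The columns of the support lie in the block. -/
theorem supp_column {e : Edge} (he : e ∈ supp g W A L) : A ≤ e.1.1 ∧ e.1.1 ≤ A + L := by
  rcases mem_union.1 he with h | h
  · rw [detour, mem_union, mem_union] at h
    rcases h with (h | h) | h
    · obtain ⟨k, _, rfl⟩ := mem_image.1 h; simp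
    · obtain ⟨k, _, rfl⟩ := mem_image.1 h; simp
    · obtain ⟨x, hx, he⟩ := mem_biUnion.1 h
      have hx := mem_range.1 hx
      rcases mem_insert.1 he with rfl | he
      · simp only; omega
      · split_ifs at he with hc
        · simp at he
        · rw [mem_singleton] at he; subst he; simp only; omega
  · have h := ((mem_region _ _ _ _).1 (mem_sdiff.1 h).1).1
    exact ⟨h.1, h.2.1⟩

end Vale.Agent.P158
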