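import Mathlib

/-!
# P158: first-passage percolation on the square lattice
-/

open MeasureTheory

namespace Vale.Agent.P158

/-- A vertex of the square lattice. -/
abbrev V := ℤ × ℤ

/-- An edge: its left or lower end and whether it is vertical. -/
abbrev Edge := V × Bool

/-- The other end of an edge. -/
def tip (e : Edge) : V := if e.2 then (e.1.1, e.1.2 + 1) else (e.1.1 + 1, e.1.2)

/-- Adjacency. -/
def Adj (u v : V) : Prop := |v.1 - u.1| + |v.2 - u.2| = 1

/-- The edge between two neighbours. -/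
def edgeOf (u v : V) : Edge :=
  if u.1 = v.1 then ((u.1, min u.2 v.2), true) else ((min u.1 v.1, u.2), false)

/-- The first `m` steps of `w` form a self-avoiding path. -/
def IsPathTo (m : ℕ) (w : ℕ → V) : Prop :=
  (∀ k < m, Adj (w k) (w (k + 1))) ∧ ∀ k ≤ m, ∀ l ≤ m, w k = w l → k = l

/-- The passage time of the first `m` steps. -/
noncomputable def cost (t : Edge → ℝ) (m : ℕ) (w : ℕ → V) : ℝ :=
  ∑ k ∈ Finset.range m, t (edgeOf (w k) (w (k + 1)))

/-- No self-avoiding path between its ends is cheaper than the first `n` steps of `v`. -/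
def IsOptimal (t : Edge → ℝ) (n : ℕ) (v : ℕ → V) : Prop :=
  ∀ (m : ℕ) (w : ℕ → V), IsPathTo m w → w 0 = v 0 → w m = v n → cost t n v ≤ cost t m w

/-- A geodesic ray. -/
def IsRay (t : Edge → ℝ) (v : ℕ → V) : Prop :=
  Function.Injective v ∧ (∀ k, Adj (v k) (v (k + 1))) ∧
    ∀ i j, i < j → IsOptimal t (j - i) fun k => v (i + k)

/-- A bigeodesic. -/
def IsBigeodesic (t : Edge → ℝ) (v : ℤ → V) : Prop :=
  Function.Injective v ∧ (∀ k, Adj (v k) (v (k + 1))) ∧
    ∀ i j : ℤ, i < j → IsOptimal t (j - i).toNat fun k => v (i + k)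

/-- The distance of `v` from the line `a x + b y + c = 0` is at most `η` times `log (2 + |x| + |y|)`. -/
def NearLine (η a b c : ℝ) (v : V) : Prop :=
  |a * v.1 + b * v.2 + c| ≤ η * Real.log (2 + |(v.1 : ℝ)| + |(v.2 : ℝ)|) * Real.sqrt (a ^ 2 + b ^ 2)

/-- No ray is eventually within a logarithmic distance of a line, and neither end of a bigeodesic is. -/
def RayStmt : Prop :=
  ∀ G : Measure ℝ, IsProbabilityMeasure G → G (Set.Iio 0) = 0 → (∀ x, G {x} = 0) →
    ∃ η : ℝ, 0 < η ∧ ∀ᵐ t ∂Measure.infinitePi (fun _ : Edge => G),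
      (∀ v : ℕ → V, IsRay t v → ∀ a b c : ℝ, (a, b) ≠ (0, 0) →
        ∀ i₀ : ℕ, ∃ i, i₀ ≤ i ∧ ¬NearLine η a b c (v i)) ∧
      ∀ v : ℤ → V, IsBigeodesic t v → ∀ a b c : ℝ, (a, b) ≠ (0, 0) → ∀ i₀ : ℤ,
        (∃ i, i₀ ≤ i ∧ ¬NearLine η a b c (v i)) ∧ ∃ i, i ≤ i₀ ∧ ¬NearLine η a b c (v i)

end Vale.Agent.P158
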