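import Vale.Agent.P158.Scales

/-!
# P158: rays leave every logarithmic strip
-/

open MeasureTheory ProbabilityTheory Finset Filter Topology

namespace Vale.Agent.P158

/-- The weights at which the argument works. -/
def Env (a δ η : ℝ) (K : ℕ) (t : Edge → ℝ) : Prop :=
  (∀ e, a ≤ t e) ∧
    ∀ᶠ M : ℕ in atTop, ScaleOK (a + δ / 4) (a + δ) (width η M) (K * (width η M + 1)) M t

theorem crossing_exists {f : ℕ → ℤ} (hf : ∀ k, |f (k + 1) - f k| ≤ 1) {i₀ i₁ : ℕ} (h01 : i₀ ≤ i₁) {A B : ℤ}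
    (hAB : A < B) (h0 : f i₀ ≤ A) (h1 : B ≤ f i₁) :
    ∃ i j, i₀ ≤ i ∧ i < j ∧ f i = A ∧ f j = B ∧ ∀ k, i ≤ k → k ≤ j → A ≤ f k ∧ f k ≤ B := by
  classical
  have hex : ∃ j, i₀ ≤ j ∧ B ≤ f j := ⟨i₁, h01, h1⟩
  set j := Nat.find hex
  obtain ⟨hj0, hjB⟩ := Nat.find_spec hex
  have hjmin : ∀ k, i₀ ≤ k → k < j → f k < B := fun k hk hkj =>
    not_le.1 fun h => Nat.find_min hex hkj ⟨hk, h⟩
  have hjne : i₀ < j := lt_of_le_of_ne hj0 fun e => by
    have : B ≤ f i₀ := by rw [e]; exact hjB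
    omega
  have hfj : f j = B := by
    have h2 := hjmin (j - 1) (by omega) (by omega)
    have h3 := hf (j - 1)
    rw [show j - 1 + 1 = j by omega, abs_le] at h3
    have : B ≤ f j := hjB
    omega
  set i := Nat.findGreatest (fun k => f k ≤ A) j
  have hi0 : i₀ ≤ i := Nat.le_findGreatest hj0 h0
  have hiA : f i ≤ A := Nat.findGreatest_spec (P := fun k => f k ≤ A) hj0 h0
  have hij : i < j := lt_of_le_of_ne (Nat.findGreatest_le j) fun e => by rw [e, hfj] at hiA; omega
  have hmax : ∀ k, i < k → k ≤ j → A < f k := fun k hk hkj => not_le.1 (Nat.findGreatest_is_greatest hk hkj)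
  have hfi : f i = A := by
    have h2 := hmax (i + 1) (by omega) hij
    have h3 := hf i
    rw [abs_le] at h3
    omega
  refine ⟨i, j, hi0, hij, hfi, hfj, fun k hk hkj => ?_⟩
  rcases hk.eq_or_lt with rfl | hk'
  · omega
  · refine ⟨(hmax k hk' hkj).le, ?_⟩
    rcases hkj.eq_or_lt with rfl | hkj'
    · omega
    · exact (hjmin k (by omega) hkj').le

theorem adj_fst {u v : V} (h : Adj u v) : |v.1 - u.1| ≤ 1 := by
  unfold Adj at h; have := abs_nonneg (v.2 - u.2); omega

variable {a δ η : ℝ} {K : ℕ} {t : Edge → ℝ}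

/-- A ray cannot cross all blocks of a strip at one scale. -/
theorem not_cross (ha : 0 ≤ a) (hδ : 0 < δ) (hK : 48 * (a + δ) < δ * K) (hK0 : 0 < K) (ht : ∀ e, a ≤ t e)
    {M : ℕ} (hM : 0 < M) {W : ℕ} (hok : ScaleOK (a + δ / 4) (a + δ) W (K * (W + 1)) M t) {v : ℕ → V}
    (hv : IsRay t v) {i j : ℤ} (hi : |i| ≤ (2 * M : ℕ)) (hj : |j| ≤ (2 * M : ℕ)) {i₀ i₁ : ℕ} (h01 : i₀ ≤ i₁)
    (h0 : |(v i₀).1| < (M : ℤ)) (h1 : (2 * M : ℕ) < |(v i₁).1|)
    (hnear : ∀ k, i₀ ≤ k → |(v k).1| ≤ (2 * M : ℕ) → |(v k).2 - gOf (2 * M) i j (v k).1| ≤ W) : False := by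
  set L := K * (W + 1) with hLdef
  have hLpos : 0 < L := Nat.mul_pos hK0 (Nat.succ_pos _)
  have hg := slow_gOf (D := 2 * M) (by omega) hi j
  have hL : 48 * (a + δ) * ((W : ℝ) + 1) < δ * L := by
    rw [hLdef, Nat.cast_mul, Nat.cast_add, Nat.cast_one, ← mul_assoc]
    exact mul_lt_mul_of_pos_right hK (by positivity)
  obtain ⟨right, hside⟩ : ∃ b : Bool, if b then (2 * M : ℕ) < (v i₁).1 else (v i₁).1 < -((2 * M : ℕ) : ℤ) := by
    rcases lt_abs.1 h1 with h | h
    · exact ⟨true, h⟩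
    · exact ⟨false, by simp; omega⟩
  obtain ⟨k, hk, hev⟩ := hok i j hi hj right
  set A := start M L right k with hA
  have hkM : ((k : ℤ) + 1) * ((L : ℤ) + 1) ≤ M := by
    have h2 := Nat.mul_le_mul_right (L + 1) (Nat.succ_le_of_lt hk)
    have h3 := Nat.div_mul_le_self M (L + 1)
    exact_mod_cast h2.trans h3
  have hk0 : (0 : ℤ) ≤ (k : ℤ) * ((L : ℤ) + 1) := by positivity
  rw [abs_lt] at h0
  have hgood := good_of_mem hev
  have hseg : ∀ p q, i₀ ≤ p → p < q → (∀ k, p ≤ k → k ≤ q → A ≤ (v k).1 ∧ (v k).1 ≤ A + L) →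
      ∀ k ≤ q - p, InS (gOf (2 * M) i j) W A L (v (p + k)) := fun p q hp hpq hb k hk => by
    obtain ⟨b1, b2⟩ := hb (p + k) (by omega) (by omega)
    refine ⟨b1, b2, hnear _ (by omega) ?_⟩
    rw [abs_le]
    cases right <;> simp only [hA, start, Bool.false_eq_true, if_true, if_false] at b1 b2 <;> push_cast at * <;>
      constructor <;> linarith
  have hpath : ∀ p n, IsPathTo n fun k => v (p + k) := fun p n =>
    ⟨fun k _ => hv.2.1 (p + k), fun k _ l _ h => Nat.add_left_cancel (hv.1 h)⟩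
  cases right
  · simp only [Bool.false_eq_true, if_false] at hside
    simp only [hA, start, Bool.false_eq_true, if_false] at hgood
    obtain ⟨p, q, hp, hpq, ep, eq, hb⟩ := crossing_exists (f := fun k => -(v k).1)
      (fun k => by rw [neg_sub_neg, abs_sub_comm]; exact adj_fst (hv.2.1 k)) h01
      (show -(A + L) < -A by omega)
      (by simp only [hA, start, Bool.false_eq_true, if_false]; push_cast; linarith)
      (by simp only [hA, start, Bool.false_eq_true, if_false]; push_cast at *; linarith)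
    have hS := hseg p q hp hpq fun k h1 h2 => by have := hb k h1 h2; constructor <;> omega
    refine not_crossing hg ha hδ ht hev.1 (good_of_mem hev) hL (n := q - p)
      (isPathTo_reverse (hpath p (q - p))) (fun k hk => hS _ (by omega)) ?_ ?_
      (optimal_reverse (hpath p (q - p)).1 (hv.2.2 p q hpq))
    · simp only [Nat.sub_zero, show p + (q - p) = q by omega]; omega
    · simp only [Nat.sub_self, add_zero]; omega
  · simp only [if_true] at hside
    obtain ⟨p, q, hp, hpq, ep, eq, hb⟩ := crossing_exists (f := fun k => (v k).1)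
      (fun k => adj_fst (hv.2.1 k)) h01 (show A < A + L by omega)
      (by simp only [hA, start, if_true]; linarith)
      (by simp only [hA, start, if_true]; push_cast at *; linarith)
    exact not_crossing hg ha hδ ht hev.1 hgood hL (hpath p (q - p)) (hseg p q hp hpq hb) (by simpa using ep)
      (by simpa [show p + (q - p) = q by omega] using eq) (hv.2.2 p q hpq)

theorem log_twenty_lt : Real.log 20 ≤ 19 := (Real.log_le_sub_one_of_pos (by norm_num)).trans (by norm_num)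

/-- No ray is eventually within a small logarithmic distance of a graph of slope at most one. -/
theorem not_near (ha : 0 ≤ a) (hδ : 0 < δ) (hK : 48 * (a + δ) < δ * K) (hK0 : 0 < K) (henv : Env a δ η K t)
    {η' : ℝ} (hη'0 : 0 < η') (hη' : η' ≤ 1 / 16) (hηη : 2 * η' ≤ η) {v : ℕ → V} (hv : IsRay t v) {s c : ℝ}
    (hs : |s| ≤ 1) {i₀ : ℕ}
    (hnear : ∀ k, i₀ ≤ k → |((v k).2 : ℝ) - (s * (v k).1 + c)|
      ≤ 2 * η' * Real.log (2 + |((v k).1 : ℝ)| + |((v k).2 : ℝ)|)) : False := by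
  have hylin : ∀ k, i₀ ≤ k → |((v k).2 : ℝ)| ≤ 2 * |((v k).1 : ℝ)| + 2 * |c| + 1 := fun k hk => by
    have h1 := hnear k hk
    have hl := Real.log_le_sub_one_of_pos (show 0 < 2 + |((v k).1 : ℝ)| + |((v k).2 : ℝ)| by positivity)
    have h2 := mul_le_mul_of_nonneg_left hl (show 0 ≤ 2 * η' by positivity)
    have h3 : |s * ((v k).1 : ℝ)| ≤ |((v k).1 : ℝ)| := by
      rw [abs_mul]; exact mul_le_of_le_one_left (abs_nonneg _) hs
    have h4 := abs_sub_abs_le_abs_sub ((v k).2 : ℝ) (s * (v k).1 + c)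
    have h5 := abs_add_le (s * ((v k).1 : ℝ)) c
    nlinarith [abs_nonneg ((v k).1 : ℝ), abs_nonneg ((v k).2 : ℝ), abs_nonneg c]
  obtain ⟨M, hok, hM⟩ := (henv.2.and (eventually_ge_atTop ((v i₀).1.natAbs + ⌈|c|⌉₊ + 2))).exists
  have hMc : |c| + 2 ≤ M := by
    refine le_trans (add_le_add (Nat.le_ceil _) le_rfl) ?_
    exact_mod_cast (show ⌈|c|⌉₊ + 2 ≤ M by omega)
  obtain ⟨i₁, hi1, hx⟩ : ∃ i₁, i₀ ≤ i₁ ∧ ((2 * M : ℕ) : ℤ) < |(v i₁).1| := by
    by_contra hne
    push Not at hne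
    refine Set.infinite_range_of_injective (f := fun k => v (i₀ + k))
      (fun k l h => Nat.add_left_cancel (hv.1 h))
      (((Set.finite_Icc (-((2 * M : ℕ) : ℤ)) (2 * M : ℕ)).prod
        (Set.finite_Icc (-((7 * M : ℕ) : ℤ)) (7 * M : ℕ))).subset ?_)
    rintro _ ⟨k, rfl⟩
    have hx := hne (i₀ + k) (by omega)
    have hy := hylin (i₀ + k) (by omega)
    have hx' : |((v (i₀ + k)).1 : ℝ)| ≤ 2 * M := by exact_mod_cast hx
    have hy' : |(v (i₀ + k)).2| ≤ ((7 * M : ℕ) : ℤ) := by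
      have : |((v (i₀ + k)).2 : ℝ)| ≤ 7 * M := by linarith
      exact_mod_cast this
    rw [abs_le] at hx hy'
    exact ⟨⟨hx.1, hx.2⟩, ⟨hy'.1, hy'.2⟩⟩
  have hMpos : (0 : ℝ) < M := by linarith [abs_nonneg c]
  have hs' := abs_le.1 hs
  set i : ℤ := ⌊s * (2 * M : ℕ)⌋
  set j : ℤ := ⌊c⌋
  have hi1' := Int.floor_le (s * (2 * M : ℕ))
  have hi2' := Int.lt_floor_add_one (s * (2 * M : ℕ))
  refine not_cross ha hδ hK hK0 henv.1 (by omega) hok hv (i := i) (j := j) ?_ ?_ hi1
    (show |(v i₀).1| < (M : ℤ) by rw [Int.abs_eq_natAbs]; omega) hx fun k hk hkx => ?_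
  · rw [abs_le]
    constructor
    · exact Int.le_floor.2 (by push_cast; nlinarith)
    · exact Int.floor_le_iff.2 (by push_cast; nlinarith)
  · rw [abs_le]
    have := abs_le.1 (show |c| ≤ (M : ℝ) by linarith)
    constructor
    · exact Int.le_floor.2 (by push_cast; linarith)
    · exact Int.floor_le_iff.2 (by push_cast; linarith)
  · have hy := hylin k hk
    have hxr : |((v k).1 : ℝ)| ≤ 2 * M := by exact_mod_cast hkx
    have hlog : Real.log (2 + |((v k).1 : ℝ)| + |((v k).2 : ℝ)|) ≤ 19 + Real.log M := by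
      refine (Real.log_le_log (by positivity) (show _ ≤ 20 * (M : ℝ) by linarith)).trans ?_
      rw [Real.log_mul (by norm_num) hMpos.ne']
      linarith [log_twenty_lt]
    have hnk := hnear k hk
    have hn2 := mul_le_mul_of_nonneg_left hlog (show 0 ≤ 2 * η' by positivity)
    have hW : η * Real.log M + 7 ≤ (width η M : ℝ) := by
      simp only [width, Nat.cast_add, Nat.cast_ofNat]
      linarith [Nat.lt_floor_add_one (η * Real.log M)]
    have hlM : 0 ≤ Real.log M := Real.log_nonneg (by linarith [abs_nonneg c])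
    set D : ℕ := 2 * M
    set x : ℤ := (v k).1
    have hD : (0 : ℝ) < (D : ℝ) := by simp only [D]; push_cast; linarith
    have hdiv : |((i * x / (D : ℤ) : ℤ) : ℝ) - s * x| ≤ 2 := by
      have e1 := Int.emod_add_mul_ediv (i * x) (D : ℤ)
      have r0 := Int.emod_nonneg (i * x) (show (D : ℤ) ≠ 0 by omega)
      have r1 := Int.emod_lt_of_pos (i * x) (show (0 : ℤ) < D by omega)
      have e1' : (((i * x) % (D : ℤ) : ℤ) : ℝ) + (D : ℝ) * ((i * x / (D : ℤ) : ℤ) : ℝ) = (i : ℝ) * x := by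
        exact_mod_cast e1
      have r0' : (0 : ℝ) ≤ (((i * x) % (D : ℤ) : ℤ) : ℝ) := by exact_mod_cast r0
      have r1' : (((i * x) % (D : ℤ) : ℤ) : ℝ) < (D : ℝ) := by exact_mod_cast r1
      have hxD : |(x : ℝ)| ≤ D := by simp only [D]; push_cast; exact hxr
      have hprod : |((i : ℝ) - s * D) * x| ≤ 1 * D := by
        rw [abs_mul]
        exact mul_le_mul (abs_le.2 ⟨by linarith, by linarith⟩) hxD (abs_nonneg _) zero_le_one
      have key : |(D : ℝ) * (((i * x / (D : ℤ) : ℤ) : ℝ) - s * x)| ≤ 2 * D := by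
        rw [abs_le] at hprod ⊢
        constructor <;> nlinarith
      rw [abs_mul, abs_of_pos hD] at key
      nlinarith
    have hj : |(j : ℝ) - c| ≤ 1 := abs_le.2 ⟨by linarith [Int.lt_floor_add_one c], by linarith [Int.floor_le c]⟩
    have : |((v k).2 : ℝ) - ((gOf D i j x : ℤ) : ℝ)| ≤ (width η M : ℝ) := by
      simp only [gOf, Int.cast_add]
      rw [abs_le] at hdiv hj hnk ⊢
      constructor <;> nlinarith
    exact_mod_cast this

/-- The transpose of a vertex. -/
def tr (v : V) : V := (v.2, v.1)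

/-- The transpose of an edge. -/
def trE : Edge ≃ Edge where
  toFun e := (tr e.1, !e.2)
  invFun e := (tr e.1, !e.2)
  left_inv e := by simp [tr]
  right_inv e := by simp [tr]

theorem edgeOf_tr {u v : V} (h : Adj u v) : edgeOf (tr u) (tr v) = trE (edgeOf u v) := by
  have e1 : u.1 ≠ u.1 - 1 := by omega
  have e2 : u.2 ≠ u.2 - 1 := by omega
  rcases adj_cases h with rfl | rfl | rfl | rfl <;> simp [edgeOf, tr, trE, e1, e2]

theorem adj_tr {u v : V} (h : Adj u v) : Adj (tr u) (tr v) := by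
  unfold Adj tr at *; linarith

theorem isRay_tr {v : ℕ → V} (hv : IsRay t v) : IsRay (fun e => t (trE e)) fun k => tr (v k) := by
  have htt : ∀ u, tr (tr u) = u := fun u => rfl
  have hinj : Function.Injective tr := fun x y h => by rw [← htt x, h, htt]
  have hcost : ∀ n (w : ℕ → V), (∀ k < n, Adj (w k) (w (k + 1))) →
      cost (fun e => t (trE e)) n (fun k => tr (w k)) = cost t n w := fun n w hw =>
    sum_congr rfl fun k hk => by
      show t (trE (edgeOf (tr (w k)) (tr (w (k + 1))))) = _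
      rw [edgeOf_tr (hw k (mem_range.1 hk)), show ∀ e, trE (trE e) = e from trE.left_inv]
  refine ⟨hinj.comp hv.1, fun k => adj_tr (hv.2.1 k), fun i j hij m w hw h0 hm => ?_⟩
  have hw' : IsPathTo m fun k => tr (w k) :=
    ⟨fun k hk => adj_tr (hw.1 k hk), fun k hk l hl h => hw.2 k hk l hl (hinj h)⟩
  have h := hv.2.2 i j hij m _ hw' (by simp only [h0, htt]) (by simp only [hm, htt])
  rw [hcost _ _ fun k _ => hv.2.1 (i + k)]
  refine h.trans_eq ?_
  rw [← hcost m _ hw'.1]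
  rfl

theorem law_tr {G : Measure ℝ} [IsProbabilityMeasure G] :
    MeasurePreserving (fun (t : Edge → ℝ) e => t (trE e)) (law G) (law G) := by
  refine ⟨measurable_pi_lambda _ fun e => measurable_pi_apply _, ?_⟩
  have h := Measure.infinitePi_map_piCongrLeft (fun _ : Edge => G) trE
  have e : (fun (t : Edge → ℝ) e => t (trE e)) = MeasurableEquiv.piCongrLeft (fun _ : Edge => ℝ) trE := by
    funext t e
    obtain ⟨e, rfl⟩ := trE.surjective e
    rw [MeasurableEquiv.piCongrLeft_apply_apply, show trE (trE e) = e from trE.left_inv e]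
  rw [e]
  exact h

theorem isRay_forward {v : ℤ → V} (hv : IsBigeodesic t v) (i₀ : ℤ) : IsRay t fun k => v (i₀ + k) := by
  refine ⟨fun k l h => by simpa using hv.1 h, fun k => ?_, fun i j hij => ?_⟩
  · have := hv.2.1 (i₀ + k)
    show Adj (v (i₀ + (k : ℤ))) (v (i₀ + ((k + 1 : ℕ) : ℤ)))
    rwa [Nat.cast_succ, ← add_assoc]
  · have h := hv.2.2 (i₀ + i) (i₀ + j) (by omega)
    rw [show (i₀ + (j : ℤ) - (i₀ + i)).toNat = j - i by omega] at h
    simpa only [Nat.cast_add, ← add_assoc] using h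

theorem isRay_backward {v : ℤ → V} (hv : IsBigeodesic t v) (i₀ : ℤ) : IsRay t fun k => v (i₀ - k) := by
  have hadj : ∀ k : ℕ, Adj (v (i₀ - k)) (v (i₀ - (k + 1 : ℕ))) := fun k => by
    have := hv.2.1 (i₀ - (k + 1 : ℕ))
    rw [show i₀ - ((k + 1 : ℕ) : ℤ) + 1 = i₀ - k by omega] at this
    exact adj_symm this
  refine ⟨fun k l h => by simpa using hv.1 h, hadj, fun i j hij => ?_⟩
  have h := hv.2.2 (i₀ - j) (i₀ - i) (by omega)
  rw [show (i₀ - (i : ℤ) - (i₀ - j)).toNat = j - i by omega] at h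
  have h2 := optimal_reverse (n := j - i) (fun k _ => by
    have := hv.2.1 (i₀ - j + k)
    show Adj (v (i₀ - (j : ℤ) + (k : ℤ))) (v (i₀ - (j : ℤ) + ((k + 1 : ℕ) : ℤ)))
    rwa [Nat.cast_succ, ← add_assoc]) h
  intro m w hw h0 hm
  have e : ∀ k ≤ j - i, v (i₀ - j + ((j - i - k : ℕ) : ℤ)) = v (i₀ - ((i + k : ℕ) : ℤ)) := fun k hk => by
    congr 1; omega
  have hc : cost t (j - i) (fun k => v (i₀ - ((i + k : ℕ) : ℤ)))
      = cost t (j - i) (fun k => v (i₀ - j + ((j - i - k : ℕ) : ℤ))) :=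
    sum_congr rfl fun k hk => by
      have hk := mem_range.1 hk
      simp only [e k hk.le, e (k + 1) hk]
  rw [hc]
  exact h2 m w hw (h0.trans (e 0 (Nat.zero_le _)).symm) (hm.trans (e _ le_rfl).symm)

theorem rayStmt : RayStmt := by
  intro G _ h0 hna
  obtain ⟨a, δ, η, K, ha, hδ, hη, hK2, hK, hae⟩ := exists_scales (G := G) h0 hna
  refine ⟨min (1 / 16) (η / 4), lt_min (by norm_num) (by positivity), ?_⟩
  set η' := min (1 / 16) (η / 4)
  have hη'0 : 0 < η' := lt_min (by norm_num) (by positivity)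
  have hη1 : η' ≤ 1 / 16 := min_le_left _ _
  have hη2 : 2 * η' ≤ η := by
    have : η' ≤ η / 4 := min_le_right _ _
    linarith
  filter_upwards [hae, law_tr.quasiMeasurePreserving.ae hae] with t ht ht'
  have key : ∀ v : ℕ → V, IsRay t v → ∀ a' b c : ℝ, (a', b) ≠ (0, 0) →
      ∀ i₀ : ℕ, ∃ i, i₀ ≤ i ∧ ¬NearLine η' a' b c (v i) := by
    intro v hv a' b c hab i₀
    by_contra hne
    push Not at hne
    have hlog : ∀ k, 0 ≤ Real.log (2 + |((v k).1 : ℝ)| + |((v k).2 : ℝ)|) := fun k =>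
      Real.log_nonneg (by linarith [abs_nonneg ((v k).1 : ℝ), abs_nonneg ((v k).2 : ℝ)])
    have sol : ∀ p q : ℝ, |p| ≤ |q| → (p, q) ≠ (0, 0) → ∀ x y R : ℝ, 0 ≤ R →
        |p * x + q * y + c| ≤ R * √(p ^ 2 + q ^ 2) → |y - (-p / q * x + -c / q)| ≤ 2 * R := by
      intro p q hpq hne x y R hR h
      have hq : 0 < |q| := by
        rcases (abs_nonneg q).eq_or_lt with h' | h'
        · exfalso
          rw [← h', abs_nonpos_iff] at hpq
          exact hne (by simp [hpq, abs_eq_zero.1 h'.symm])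
        · exact h'
      have hsq : √(p ^ 2 + q ^ 2) ≤ 2 * |q| := by
        rw [Real.sqrt_le_left (by positivity)]
        nlinarith [sq_abs p, sq_abs q, pow_le_pow_left₀ (abs_nonneg p) hpq 2]
      rw [show y - (-p / q * x + -c / q) = (p * x + q * y + c) / q by
        field_simp [abs_pos.1 hq]; ring, abs_div, div_le_iff₀ hq]
      nlinarith [mul_le_mul_of_nonneg_left hsq hR]
    have slope : ∀ p q : ℝ, |p| ≤ |q| → |(-p / q)| ≤ 1 := fun p q hpq => by
      rw [abs_div, abs_neg]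
      exact div_le_one_of_le₀ hpq (abs_nonneg _)
    rcases le_total |a'| |b| with h | h
    · refine not_near ha hδ hK (by omega) ht hη'0 hη1 hη2 hv (slope _ _ h) (c := -c / b) (i₀ := i₀) fun k hk => ?_
      refine (sol a' b h hab _ _ _ (mul_nonneg hη'0.le (hlog k)) (hne k hk)).trans_eq ?_
      ring
    · refine not_near ha hδ hK (by omega) ht' hη'0 hη1 hη2 (isRay_tr hv) (slope _ _ h) (c := -c / a') (i₀ := i₀)
        fun k hk => ?_
      have hn := hne k hk
      rw [NearLine, add_comm (a' * _), add_comm (a' ^ 2)] at hn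
      refine (sol b a' h (fun e => hab (by simp only [Prod.mk.injEq] at e ⊢; exact ⟨e.2, e.1⟩)) _ _ _
        (mul_nonneg hη'0.le (hlog k)) hn).trans_eq ?_
      simp only [tr]; rw [add_right_comm]; ring
  refine ⟨key, fun v hv a' b c hab i₀ => ⟨?_, ?_⟩⟩
  · obtain ⟨k, -, h⟩ := key _ (isRay_forward hv i₀) a' b c hab 0
    exact ⟨_, by omega, h⟩
  · obtain ⟨k, -, h⟩ := key _ (isRay_backward hv i₀) a' b c hab 0
    exact ⟨_, by omega, h⟩

end Vale.Agent.P158
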