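import Vale.Agent.P158.Defs

/-!
# P158: paths inside a set of edges, and reversal
-/

open Finset

namespace Vale.Agent.P158

theorem adj_symm {u v : V} (h : Adj u v) : Adj v u := by
  unfold Adj at *; rw [abs_sub_comm u.1, abs_sub_comm u.2]; exact h

theorem adj_cases {u v : V} (h : Adj u v) :
    v = (u.1 + 1, u.2) ∨ v = (u.1 - 1, u.2) ∨ v = (u.1, u.2 + 1) ∨ v = (u.1, u.2 - 1) := by
  unfold Adj at h
  obtain ⟨a, b⟩ := u
  obtain ⟨c, d⟩ := v
  simp only [Prod.mk.injEq] at *
  rcases abs_cases (c - a) with ⟨h1, _⟩ | ⟨h1, _⟩ <;> rcases abs_cases (d - b) with ⟨h2, _⟩ | ⟨h2, _⟩ <;>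
    omega

theorem edgeOf_comm (u v : V) (h : Adj u v) : edgeOf u v = edgeOf v u := by
  have e : u.1 ≠ u.1 - 1 ∧ u.1 - 1 ≠ u.1 := ⟨by omega, by omega⟩
  rcases adj_cases h with rfl | rfl | rfl | rfl <;> simp [edgeOf, e]

theorem edgeOf_ends {u v : V} (h : Adj u v) :
    ((edgeOf u v).1 = u ∧ tip (edgeOf u v) = v) ∨ ((edgeOf u v).1 = v ∧ tip (edgeOf u v) = u) := by
  obtain ⟨a, b⟩ := u
  have e : a ≠ a - 1 := by omega
  rcases adj_cases h with rfl | rfl | rfl | rfl <;> simp [edgeOf, tip, e]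

theorem edge_inj {n : ℕ} {w : ℕ → V} (hw : IsPathTo n w) :
    Set.InjOn (fun k => edgeOf (w k) (w (k + 1))) (range n : Set ℕ) := by
  intro k hk l hl h
  simp only [coe_range, Set.mem_Iio] at hk hl
  have hk' := edgeOf_ends (hw.1 k hk)
  have hl' := edgeOf_ends (hw.1 l hl)
  dsimp only at h
  rw [h] at hk'
  rcases hk' with ⟨p1, p2⟩ | ⟨p1, p2⟩ <;> rcases hl' with ⟨q1, q2⟩ | ⟨q1, q2⟩
  · exact hw.2 k hk.le l hl.le (p1.symm.trans q1)
  · have h1 := hw.2 k hk.le (l + 1) hl (p1.symm.trans q1)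
    have h2 := hw.2 (k + 1) hk l hl.le (p2.symm.trans q2)
    omega
  · have h1 := hw.2 k hk.le (l + 1) hl (p2.symm.trans q2)
    have h2 := hw.2 (k + 1) hk l hl.le (p1.symm.trans q1)
    omega
  · exact hw.2 k hk.le l hl.le (p2.symm.trans q2)

/-- Connection by a walk inside a set of edges. -/
def Conn (F : Finset Edge) (u v : V) : Prop :=
  Relation.ReflTransGen (fun x y => Adj x y ∧ edgeOf x y ∈ F) u v

theorem conn_symm {F : Finset Edge} {u v : V} (h : Conn F u v) : Conn F v u := by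
  induction h with
  | refl => exact .refl
  | tail _ h ih => exact .head ⟨adj_symm h.1, edgeOf_comm _ _ h.1 ▸ h.2⟩ ih

theorem conn_of_edge {F : Finset Edge} {e : Edge} (he : e ∈ F) : Conn F e.1 (tip e) := by
  obtain ⟨⟨x, y⟩, b⟩ := e
  refine .single ?_
  cases b <;> simp_all [Adj, tip, edgeOf]

/-- Connected points are joined by a path inside the set. -/
theorem exists_path {F : Finset Edge} {u v : V} (h : Conn F u v) :
    ∃ (m : ℕ) (w : ℕ → V), IsPathTo m w ∧ w 0 = u ∧ w m = v ∧
      ∀ k < m, edgeOf (w k) (w (k + 1)) ∈ F := by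
  have hw : ∃ (m : ℕ) (w : ℕ → V), w 0 = u ∧ w m = v ∧
      ∀ k < m, Adj (w k) (w (k + 1)) ∧ edgeOf (w k) (w (k + 1)) ∈ F := by
    induction h with
    | refl => exact ⟨0, fun _ => u, rfl, rfl, fun k hk => absurd hk (Nat.not_lt_zero k)⟩
    | @tail x y _ hxy ih =>
      obtain ⟨m, w, h0, hm, hs⟩ := ih
      refine ⟨m + 1, fun k => if k ≤ m then w k else y, by simp [h0], by simp, fun k hk => ?_⟩
      rcases (Nat.lt_succ_iff.1 hk).lt_or_eq with h | rfl
      · simp only [h.le, Nat.succ_le_of_lt h, if_true]; exact hs k h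
      · simp only [le_refl, if_true, Nat.not_succ_le_self, if_false]; rw [hm]; exact hxy
  classical
  let m := Nat.find hw
  obtain ⟨w, h0, hm, hs⟩ := Nat.find_spec hw
  refine ⟨m, w, ⟨fun k hk => (hs k hk).1, ?_⟩, h0, hm, fun k hk => (hs k hk).2⟩
  by_contra hne
  push Not at hne
  obtain ⟨k, hk, l, hl, hkl, hne⟩ := hne
  wlog hlt : k < l generalizing k l
  · exact this l hl k hk hkl.symm (Ne.symm hne) (by omega)
  refine Nat.find_min hw (show m - (l - k) < m by omega)
    ⟨fun i => if i ≤ k then w i else w (i + (l - k)), by simp [h0], ?_, fun i hi => ?_⟩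
  · by_cases h : m - (l - k) ≤ k
    · have e : k = m - (l - k) := by omega
      have el : l = m := by omega
      dsimp only
      rw [if_pos h, ← e, hkl, el]
      exact hm
    · simp only [h, if_false, Nat.sub_add_cancel (show l - k ≤ m by omega)]
      exact hm
  · rcases lt_trichotomy i k with h | rfl | h
    · simp only [h.le, Nat.succ_le_of_lt h, if_true]; exact hs i (by omega)
    · simp only [le_refl, if_true, Nat.not_succ_le_self, if_false]
      rw [show i + 1 + (l - i) = l + 1 by omega, hkl]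
      exact hs l (by omega)
    · simp only [show ¬i ≤ k by omega, show ¬i + 1 ≤ k by omega, if_false,
        show i + 1 + (l - k) = i + (l - k) + 1 by omega]
      exact hs _ (by omega)

/-- An optimal path costs at most the weight of any set of edges joining its ends. -/
theorem le_sum_of_conn {t : Edge → ℝ} (ht : ∀ e, 0 ≤ t e) {n : ℕ} {v : ℕ → V} (hv : IsOptimal t n v)
    {F : Finset Edge} (h : Conn F (v 0) (v n)) : cost t n v ≤ ∑ e ∈ F, t e := by
  obtain ⟨m, w, hw, h0, hm, hF⟩ := exists_path h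
  refine (hv m w hw h0 hm).trans ?_
  rw [cost, ← sum_image (edge_inj hw)]
  exact sum_le_sum_of_subset_of_nonneg (fun e he => by
    obtain ⟨k, hk, rfl⟩ := mem_image.1 he
    exact hF k (mem_range.1 hk)) fun e _ _ => ht e

theorem cost_reverse {t : Edge → ℝ} {n : ℕ} {w : ℕ → V} (hw : ∀ k < n, Adj (w k) (w (k + 1))) :
    cost t n (fun k => w (n - k)) = cost t n w := by
  rw [cost, cost, ← sum_range_reflect]
  refine sum_congr rfl fun k hk => ?_
  have hk := mem_range.1 hk
  rw [show n - (n - 1 - k) = k + 1 by omega, show n - (n - 1 - k + 1) = k by omega,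
    ← edgeOf_comm _ _ (hw k hk)]

theorem isPathTo_reverse {n : ℕ} {w : ℕ → V} (hw : IsPathTo n w) : IsPathTo n fun k => w (n - k) := by
  refine ⟨fun k hk => ?_, fun k hk l hl h => ?_⟩
  · have h := adj_symm (hw.1 (n - (k + 1)) (by omega))
    rwa [show n - (k + 1) + 1 = n - k by omega] at h
  · have := hw.2 (n - k) (by omega) (n - l) (by omega) h
    omega

theorem optimal_reverse {t : Edge → ℝ} {n : ℕ} {v : ℕ → V} (hv : ∀ k < n, Adj (v k) (v (k + 1)))
    (h : IsOptimal t n v) : IsOptimal t n fun k => v (n - k) := by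
  intro m w hw h0 hm
  rw [cost_reverse hv, ← cost_reverse hw.1]
  refine h m _ (isPathTo_reverse hw) ?_ ?_
  · simpa using hm
  · simpa using h0

end Vale.Agent.P158
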