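import Vale.Agent.P158.Bound

/-!
# P158: at every large scale every candidate strip has a usable block
-/

open MeasureTheory ProbabilityTheory Finset Filter Topology

namespace Vale.Agent.P158

/-- A floor line. -/
def gOf (D : ℕ) (i j x : ℤ) : ℤ := j + i * x / D

theorem slow_gOf {D : ℕ} (hD : 0 < D) {i : ℤ} (hi : |i| ≤ D) (j : ℤ) : Slow (gOf D i j) := by
  have hD' : (0 : ℤ) < D := by exact_mod_cast hD
  constructor
  · rcases le_total 0 i with h | h
    · exact Or.inl fun x y hxy => by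
        have := Int.ediv_le_ediv hD' (mul_le_mul_of_nonneg_left hxy h)
        simp only [gOf]; omega
    · exact Or.inr fun x y hxy => by
        have := Int.ediv_le_ediv hD' (mul_le_mul_of_nonpos_left hxy h)
        simp only [gOf]; omega
  · intro x
    rw [abs_le] at hi
    have h1 := Int.ediv_le_ediv hD' (show i * (x + 1) ≤ i * x + D by linarith [show i * (x + 1) = i * x + i by ring])
    have h2 := Int.ediv_le_ediv hD' (show i * x ≤ i * (x + 1) + D by linarith [show i * (x + 1) = i * x + i by ring])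
    rw [Int.add_ediv_of_dvd_right dvd_rfl, Int.ediv_self hD'.ne'] at h1 h2
    simp only [gOf]
    rw [abs_le]
    omega

variable {G : Measure ℝ} [IsProbabilityMeasure G]

/-- Lower endpoint and two thresholds of an atomless law on `[0, ∞)`. -/
theorem exists_low (h0 : G (Set.Iio 0) = 0) (hna : ∀ x, G {x} = 0) :
    ∃ a δ : ℝ, 0 ≤ a ∧ 0 < δ ∧ G (Set.Iio a) = 0 ∧ 0 < G.real (Set.Iic (a + δ / 4))
      ∧ G.real (Set.Iic (a + δ)) ≤ (1 / 32) ^ 2 := by
  set S := {x : ℝ | G (Set.Iio x) = 0}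
  have hne : S.Nonempty := ⟨0, h0⟩
  have hbdd : BddAbove S := by
    by_contra hb
    rw [not_bddAbove_iff] at hb
    have h1 : G Set.univ = 0 := by
      have e : (Set.univ : Set ℝ) = ⋃ n : ℕ, Set.Iio (n : ℝ) := by
        ext x; simp [exists_nat_gt x]
      rw [e, measure_iUnion_null_iff]
      intro n
      obtain ⟨x, hx, hnx⟩ := hb n
      exact measure_mono_null (Set.Iio_subset_Iio hnx.le) hx
    simp at h1
  set a := sSup S
  have ha : G (Set.Iio a) = 0 := by
    have e : Set.Iio a = ⋃ n : ℕ, Set.Iio (a - 1 / (n + 1)) := by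
      ext x
      simp only [Set.mem_Iio, Set.mem_iUnion]
      refine ⟨fun h => ?_, fun ⟨n, hn⟩ => hn.trans_le (sub_le_self _ (by positivity))⟩
      obtain ⟨n, hn⟩ := exists_nat_one_div_lt (sub_pos.2 h)
      exact ⟨n, by linarith⟩
    rw [e, measure_iUnion_null_iff]
    intro n
    obtain ⟨x, hx, hlt⟩ := exists_lt_of_lt_csSup hne
      (show a - 1 / ((n : ℝ) + 1) < a from sub_lt_self _ (by positivity))
    exact measure_mono_null (Set.Iio_subset_Iio hlt.le) hx
  have hIic : G (Set.Iic a) = 0 := by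
    rw [← Set.Iio_union_right]; exact measure_union_null ha (hna a)
  have hlim := tendsto_measure_iInter_atTop (μ := G) (s := fun n : ℕ => Set.Iic (a + 1 / (n + 1)))
    (fun n => measurableSet_Iic.nullMeasurableSet)
    (fun m n hmn => Set.Iic_subset_Iic.2 (by
      have := Nat.one_div_le_one_div (α := ℝ) hmn
      linarith))
    ⟨0, measure_ne_top _ _⟩
  have e : ⋂ n : ℕ, Set.Iic (a + 1 / ((n : ℝ) + 1)) = Set.Iic a := by
    ext x
    simp only [Set.mem_iInter, Set.mem_Iic]
    refine ⟨fun h => le_of_forall_pos_lt_add fun ε hε => ?_, fun h n => h.trans (le_add_of_nonneg_right (by positivity))⟩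
    obtain ⟨n, hn⟩ := exists_nat_one_div_lt hε
    linarith [h n]
  rw [e, hIic] at hlim
  obtain ⟨n, hn⟩ := ((hlim.eventually_lt_const
    (show (0 : ENNReal) < ENNReal.ofReal ((1 / 32) ^ 2) from ENNReal.ofReal_pos.2 (by norm_num)))).exists
  refine ⟨a, 1 / ((n : ℝ) + 1), le_csSup hbdd h0, by positivity, ha, ?_,
    ENNReal.toReal_le_of_le_ofReal (by norm_num) hn.le⟩
  refine ENNReal.toReal_pos (fun h => ?_) (measure_ne_top _ _)
  have : a + 1 / ((n : ℝ) + 1) / 4 ∈ S := measure_mono_null Set.Iio_subset_Iic_self h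
  have := le_csSup hbdd this
  linarith [show (0 : ℝ) < 1 / ((n : ℝ) + 1) / 4 by positivity]

/-- The starts of the blocks at scale `M`, on either side. -/
def start (M L : ℕ) (right : Bool) (k : ℕ) : ℤ :=
  (if right then (M : ℤ) else -(2 * M : ℕ)) + (k : ℤ) * (L + 1)

/-- Every floor line has, on either side, a usable block between `M` and `2 M`. -/
def ScaleOK (u s : ℝ) (W L : ℕ) (M : ℕ) (t : Edge → ℝ) : Prop :=
  ∀ i j : ℤ, |i| ≤ (2 * M : ℕ) → |j| ≤ (2 * M : ℕ) → ∀ right : Bool, ∃ k < M / (L + 1),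
    t ∈ blockEvent (gOf (2 * M) i j) W (start M L right k) L u s

theorem law_not_scaleOK {u s : ℝ} (hs : G.real (Set.Iic s) ≤ (1 / 32) ^ 2) {W L M : ℕ} (hL : 2 * W + 2 ≤ L)
    (hM : 0 < M) :
    (law G).real {t | ¬ScaleOK u s W L M t} ≤
      2 * (4 * (M : ℝ) + 1) ^ 2 *
        Real.exp (-((M / (L + 1) : ℕ) * (G.real (Set.Iic u) ^ (4 * (W + 1) + 2 * L) / 2))) := by
  set I := Icc (-((2 * M : ℕ) : ℤ)) (2 * M : ℕ) ×ˢ Icc (-((2 * M : ℕ) : ℤ)) (2 * M : ℕ) ×ˢ (univ : Finset Bool)
  set ev : ℤ × ℤ × Bool → ℕ → Set (Edge → ℝ) := fun c k =>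
    blockEvent (gOf (2 * M) c.1 c.2.1) W (start M L c.2.2 k) L u s
  have hsub : {t | ¬ScaleOK u s W L M t} ⊆ ⋃ c ∈ I, ⋂ k ∈ range (M / (L + 1)), (ev c k)ᶜ := by
    intro t ht
    simp only [ScaleOK, not_forall, not_exists, not_and] at ht
    obtain ⟨i, j, hi, hj, right, h⟩ := ht
    exact Set.mem_biUnion (x := (i, j, right))
      (by simp only [I, mem_coe, mem_product, mem_Icc, mem_univ, and_true]; rw [abs_le] at hi hj; omega)
      (Set.mem_iInter₂.2 fun k hk => h k (mem_range.1 hk))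
  refine (measureReal_mono hsub (measure_ne_top _ _)).trans ((measureReal_biUnion_finset_le _ _).trans ?_)
  set p := G.real (Set.Iic u) ^ (4 * (W + 1) + 2 * L) / 2
  have h1 : ∀ c ∈ I, (law G).real (⋂ k ∈ range (M / (L + 1)), (ev c k)ᶜ) ≤ Real.exp (-((M / (L + 1) : ℕ) * p)) := by
    rintro ⟨i, j, right⟩ hc
    simp only [I, mem_product, mem_Icc, mem_univ, and_true] at hc
    have hg : Slow (gOf (2 * M) i j) := slow_gOf (by omega) (abs_le.2 hc.1) j
    rw [measureReal_def, law_biInter _ _ (fun k => supp (gOf (2 * M) i j) W (start M L right k) L)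
      (fun k _ => (depOn_blockEvent _ _ _ _ _ _).compl) ?_, ENNReal.toReal_prod]
    · refine (prod_le_prod (fun k _ => ENNReal.toReal_nonneg) (g := fun _ => Real.exp (-p)) fun k _ => ?_).trans_eq ?_
      · rw [← measureReal_def, measureReal_compl (depOn_blockEvent _ _ _ _ _ _).1, probReal_univ]
        have := law_blockEvent_ge (G := G) (u := u) (A := start M L right k) hs hL hg
        linarith [Real.add_one_le_exp (-p), show p ≤ _ from this]
      · rw [prod_const, card_range, ← Real.exp_nat_mul]; congr 1; ring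
    · intro k _ l _ hkl
      refine Finset.disjoint_left.2 fun e he he' => hkl ?_
      have h1 := supp_column he
      have h2 := supp_column he'
      simp only [start] at h1 h2
      by_contra hne
      rcases Nat.lt_or_gt_of_ne hne with h | h <;>
        nlinarith [show (k : ℤ) < l ∨ (l : ℤ) < k by omega, Int.natCast_nonneg L]
  refine (sum_le_sum h1).trans (le_of_eq ?_)
  rw [sum_const, nsmul_eq_mul]
  congr 1
  simp only [I, card_product, Int.card_Icc, card_univ, Fintype.card_bool]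
  rw [show (((2 * M : ℕ) : ℤ) + 1 - -((2 * M : ℕ) : ℤ)).toNat = 4 * M + 1 by omega]
  push_cast
  ring

/-- The half width at scale `M`. -/
noncomputable def width (η : ℝ) (M : ℕ) : ℕ := ⌊η * Real.log M⌋₊ + 8

theorem eventually_small {u s η θ : ℝ} {K : ℕ} (hK : 2 ≤ K) (hs : G.real (Set.Iic s) ≤ (1 / 32) ^ 2)
    (hθ : θ = G.real (Set.Iic u) ^ (4 + 2 * K) / 2) (hθ0 : 0 < θ) (hθ1 : θ < 1)
    (hηdef : η = 1 / (-2 * Real.log θ)) : ∀ᶠ M : ℕ in atTop,
      ‖(law G).real {t | ¬ScaleOK u s (width η M) (K * (width η M + 1)) M t}‖ ≤ 50 * (1 / (M : ℝ) ^ 2) := by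
  have hlθ : Real.log θ < 0 := Real.log_neg hθ0 hθ1
  have hη : 0 < η := hηdef ▸ one_div_pos.2 (by linarith)
  set q := G.real (Set.Iic u)
  set C := (K : ℝ) * (η + 10) + 1
  have hC : 0 < C := by positivity
  set κ := θ ^ 9 / (2 * C)
  have hκ : 0 < κ := by positivity
  have hasym := (isLittleO_log_rpow_rpow_atTop (s := 1 / 2) 2 (by norm_num)).bound
    (show 0 < κ / 8 by positivity)
  have hlin := Real.isLittleO_log_id_atTop.bound (show (0 : ℝ) < 1 / (4 * C) by positivity)
  filter_upwards [tendsto_natCast_atTop_atTop.eventually hasym, tendsto_natCast_atTop_atTop.eventually hlin,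
    (Real.tendsto_log_atTop.comp tendsto_natCast_atTop_atTop).eventually_ge_atTop 1,
    eventually_ge_atTop 1] with M hM hMlin hlog hM1
  simp only [Function.comp_apply, id_eq] at hlog hMlin
  have hMpos : (0 : ℝ) < M := by exact_mod_cast hM1
  set W := width η M
  set L := K * (W + 1)
  set lg := Real.log M
  have hL : 2 * W + 2 ≤ L := by
    calc 2 * W + 2 = 2 * (W + 1) := by ring
      _ ≤ L := Nat.mul_le_mul_right _ hK
  rw [Real.norm_eq_abs, abs_of_nonneg measureReal_nonneg]
  refine (law_not_scaleOK hs hL (by omega)).trans ?_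
  set m := M / (L + 1)
  set p := q ^ (4 * (W + 1) + 2 * L) / 2
  have hWle : (W : ℝ) ≤ η * lg + 8 := by
    simp only [W, width, Nat.cast_add, Nat.cast_ofNat]
    linarith [Nat.floor_le (show 0 ≤ η * lg by positivity)]
  have hp : θ ^ 9 / Real.sqrt M ≤ p := by
    have h1 : θ ^ (W + 1) ≤ p := by
      simp only [hθ, p]
      rw [div_pow, ← pow_mul, show (4 + 2 * K) * (W + 1) = 4 * (W + 1) + 2 * L by simp [L]; ring]
      exact div_le_div_of_nonneg_left (by positivity) two_pos (le_self_pow₀ one_le_two (by omega))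
    refine le_trans ?_ h1
    have e : θ ^ 9 / Real.sqrt M = Real.exp (9 * Real.log θ - lg / 2) := by
      rw [Real.exp_sub, mul_comm (9 : ℝ), ← Real.rpow_def_of_pos hθ0, Real.sqrt_eq_rpow,
        Real.rpow_def_of_pos hMpos, show (1 / 2 : ℝ) = 2⁻¹ by norm_num]
      norm_num [lg, div_eq_mul_inv]
    rw [e, ← Real.rpow_natCast θ (W + 1), Real.rpow_def_of_pos hθ0]
    refine Real.exp_le_exp.2 ?_
    have : η * lg * Real.log θ = -(lg / 2) := by rw [hηdef]; field_simp [hlθ.ne]
    push_cast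
    nlinarith
  have hsq : lg ^ 2 ≤ κ / 8 * Real.sqrt M := by
    rw [Real.norm_eq_abs, Real.norm_eq_abs] at hM
    rw [← Real.sqrt_eq_rpow, Real.rpow_two, abs_of_nonneg (sq_nonneg _),
      abs_of_nonneg (Real.sqrt_nonneg _)] at hM
    exact hM
  have hL1 : (L : ℝ) + 1 ≤ C * lg := by
    simp only [L, C, Nat.cast_mul, Nat.cast_add, Nat.cast_one]
    have : (W : ℝ) + 1 ≤ (η + 10) * lg := by linarith
    nlinarith [Nat.cast_nonneg (α := ℝ) K]
  have hlinM : C * lg ≤ M / 4 := by
    rw [Real.norm_eq_abs, Real.norm_eq_abs, abs_of_nonneg (by linarith), abs_of_pos hMpos,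
      div_mul_eq_mul_div, one_mul, le_div_iff₀ (by positivity)] at hMlin
    linarith
  have hm : (M : ℝ) / (2 * (C * lg)) ≤ m := by
    have h1 : (M : ℝ) < ((m : ℝ) + 1) * (L + 1) := by
      exact_mod_cast (show M < (m + 1) * (L + 1) by rw [mul_comm]; exact Nat.lt_mul_div_succ M (Nat.succ_pos L))
    rw [div_le_iff₀ (by positivity)]
    nlinarith [Nat.cast_nonneg (α := ℝ) m, Nat.cast_nonneg (α := ℝ) L]
  have hexp : 4 * lg ≤ m * p := by
    refine le_trans ?_ (mul_le_mul hm hp (by positivity) (Nat.cast_nonneg _))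
    have hs' : Real.sqrt M * Real.sqrt M = M := Real.mul_self_sqrt hMpos.le
    rw [div_mul_div_comm, le_div_iff₀ (by positivity)]
    have : κ * (2 * C) = θ ^ 9 := by simp only [κ]; field_simp
    have e1 : κ * C * (Real.sqrt M * Real.sqrt M) = κ * C * M := by rw [hs']
    have e2 : (M : ℝ) * θ ^ 9 = 2 * (κ * C * M) := by rw [← this]; ring
    nlinarith [mul_le_mul_of_nonneg_right hsq (show (0 : ℝ) ≤ 8 * C * Real.sqrt M by positivity),
      show (0 : ℝ) ≤ κ * C * M by positivity]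
  have hexp' : Real.exp (-(m * p)) ≤ 1 / (M : ℝ) ^ 4 := by
    rw [show 1 / (M : ℝ) ^ 4 = Real.exp (-(4 * lg)) by
      rw [Real.exp_neg, show (4 : ℝ) * lg = ((4 : ℕ) : ℝ) * lg by norm_num, Real.exp_nat_mul,
        Real.exp_log hMpos, one_div]]
    exact Real.exp_le_exp.2 (by linarith)
  refine (mul_le_mul_of_nonneg_left hexp' (by positivity)).trans ?_
  rw [mul_one_div, mul_one_div, div_le_div_iff₀ (by positivity) (by positivity)]
  have hM2 : (1 : ℝ) ≤ M := by exact_mod_cast hM1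
  nlinarith [mul_le_mul_of_nonneg_right (pow_le_pow_left₀ (by positivity)
    (show 4 * (M : ℝ) + 1 ≤ 5 * M by linarith) 2) (show (0 : ℝ) ≤ 2 * (M : ℝ) ^ 2 by positivity)]

theorem exists_scales (h0 : G (Set.Iio 0) = 0) (hna : ∀ x, G {x} = 0) :
    ∃ (a δ η : ℝ) (K : ℕ), 0 ≤ a ∧ 0 < δ ∧ 0 < η ∧ 2 ≤ K ∧ 48 * (a + δ) < δ * K ∧
      ∀ᵐ t ∂law G, (∀ e, a ≤ t e) ∧
        ∀ᶠ M : ℕ in atTop, ScaleOK (a + δ / 4) (a + δ) (width η M) (K * (width η M + 1)) M t := by
  obtain ⟨a, δ, ha, hδ, hlow, hq, hs⟩ := exists_low h0 hna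
  obtain ⟨K, hK⟩ := exists_nat_gt (max 2 (48 * (a + δ) / δ))
  rw [max_lt_iff, div_lt_iff₀ hδ] at hK
  set q := G.real (Set.Iic (a + δ / 4))
  set θ := q ^ (4 + 2 * K) / 2 with hθdef
  have hθ0 : 0 < θ := by positivity
  have hθ1 : θ < 1 := by
    have : q ^ (4 + 2 * K) ≤ 1 := pow_le_one₀ measureReal_nonneg measureReal_le_one
    linarith
  have hlθ : Real.log θ < 0 := Real.log_neg hθ0 hθ1
  set η := 1 / (-2 * Real.log θ)
  have hη : 0 < η := one_div_pos.2 (by linarith)
  refine ⟨a, δ, η, K, ha, hδ, hη, by exact_mod_cast hK.1.le, by linarith [hK.2],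
    Eventually.and (ae_all_iff.2 fun e => ?_) ?_⟩
  · have := (measurePreserving_eval_infinitePi (fun _ : Edge => G) e).quasiMeasurePreserving.ae
      (p := fun x => a ≤ x) (by
        rw [ae_iff]
        exact (congrArg G (Set.ext fun x => not_le)).trans hlow)
    exact this
  set F : ℕ → ℝ := fun M =>
    (law G).real {t | ¬ScaleOK (a + δ / 4) (a + δ) (width η M) (K * (width η M + 1)) M t}
  have hsum : Summable F := Summable.of_norm_bounded_eventually_nat
    ((Real.summable_one_div_nat_pow.2 one_lt_two).mul_left 50)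
    (eventually_small (by exact_mod_cast hK.1.le) hs hθdef hθ0 hθ1 rfl)
  have hne : (∑' M, law G {t | ¬ScaleOK (a + δ / 4) (a + δ) (width η M) (K * (width η M + 1)) M t}) ≠ ⊤ :=
    ne_top_of_le_ne_top hsum.tsum_ofReal_ne_top
      (ENNReal.tsum_le_tsum fun M => (ofReal_measureReal (measure_ne_top _ _)).ge)
  filter_upwards [ae_eventually_notMem hne] with t ht
  exact ht.mono fun M hM => not_not.1 hM

end Vale.Agent.P158
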